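import Vale.Agent.P073.PA691.TMSpec

/-!
# P073, block TM-S (helper489), part 1: boxes, `H`, `Hin`, `F`
-/

open Set Metric Topology Filter

namespace P073.PA691

open P073 PR720
open Vale.Agent.P073.St (V IsInv)

/-! ### Boxes -/

/-- the open box -/
def obox (lo hi : V) : Set V := {x | ∀ k, lo k < x k ∧ x k < hi k}

theorem obox_eq (lo hi : V) : obox lo hi = univ.pi fun k => Ioo (lo k) (hi k) := by
  ext x
  simp only [obox, mem_ofPred_eq, mem_univ_pi, mem_Ioo]

theorem isOpen_obox (lo hi : V) : IsOpen (obox lo hi) := by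
  rw [obox_eq]
  exact isOpen_set_pi finite_univ fun k _ => isOpen_Ioo

theorem mem_Icc_iff {lo hi x : V} : x ∈ Icc lo hi ↔ ∀ k, lo k ≤ x k ∧ x k ≤ hi k := by
  rw [mem_Icc, Pi.le_def, Pi.le_def]
  exact ⟨fun h k => ⟨h.1 k, h.2 k⟩, fun h => ⟨fun k => (h k).1, fun k => (h k).2⟩⟩

theorem Icc_eq_pi (lo hi : V) : Icc lo hi = univ.pi fun k => Icc (lo k) (hi k) := by
  ext x
  rw [mem_Icc_iff, mem_univ_pi]
  rfl

theorem interior_Icc_V (lo hi : V) : interior (Icc lo hi) = obox lo hi := by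
  rw [Icc_eq_pi, obox_eq, interior_pi_set finite_univ]
  congr 1
  ext1 k
  exact interior_Icc

theorem closure_obox {lo hi : V} (h : ∀ k, lo k < hi k) : closure (obox lo hi) = Icc lo hi := by
  rw [Icc_eq_pi, obox_eq, closure_pi_set]
  congr 1
  ext1 k
  exact closure_Ioo (h k).ne

theorem obox_subset (lo hi : V) : obox lo hi ⊆ Icc lo hi := fun _ hx =>
  mem_Icc_iff.2 fun k => ⟨(hx k).1.le, (hx k).2.le⟩

/-- expansion about an interior point leaves the box -/
theorem expand_notMem {lo hi p x : V} (hp : p ∈ obox lo hi) (hx : x ∉ obox lo hi) {t : ℝ}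
    (ht : 0 < t) : x + t • (x - p) ∉ Icc lo hi := by
  intro hm
  apply hx
  intro k
  obtain ⟨h1, h2⟩ := mem_Icc_iff.1 hm k
  obtain ⟨h3, h4⟩ := hp k
  simp only [Pi.add_apply, Pi.smul_apply, Pi.sub_apply, smul_eq_mul] at h1 h2
  constructor
  · by_contra hc
    push Not at hc
    nlinarith
  · by_contra hc
    push Not at hc
    nlinarith

/-- `y` close to `z ∈ W` is only in the members of the family which contain `z` -/
theorem LF_eventually {ι : Type*} {A : ι → Set V} {W : Set V} (h : LF A W)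
    (hA : ∀ i, IsClosed (A i)) {z : V} (hz : z ∈ W) : ∀ᶠ y in 𝓝 z, ∀ i, y ∈ A i → z ∈ A i := by
  obtain ⟨U, hU, hfin⟩ := h z hz
  have h1 : ∀ᶠ y in 𝓝 z, ∀ i ∈ {i | (A i ∩ U).Nonempty}, y ∈ A i → z ∈ A i := by
    rw [eventually_all_finite hfin]
    intro i _
    by_cases hi : z ∈ A i
    · exact Eventually.of_forall fun _ _ => hi
    · filter_upwards [(hA i).isOpen_compl.mem_nhds hi] with y hy hyi
      exact absurd hyi hy
  filter_upwards [h1, hU] with y hy hyU i hyi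
  exact hy i ⟨y, hyi, hyU⟩ hyi

namespace BoxCx

variable {Λ : Set V} {v : V} {K : BoxCx Λ v}

theorem nb_eq (e : K.G) (t : ℝ) :
    K.nb e t = Icc (fun k => K.w (K.a e) k - t) (fun k => K.w (K.b e) k + t) := by
  ext x
  rw [mem_Icc_iff]
  rfl

theorem nbo_eq (e : K.G) (t : ℝ) :
    K.nbo e t = obox (fun k => K.w (K.a e) k - t) (fun k => K.w (K.b e) k + t) := rfl

theorem isClosed_nb (e : K.G) (t : ℝ) : IsClosed (K.nb e t) := by
  rw [nb_eq]
  exact isClosed_Icc

theorem isOpen_nbo (e : K.G) (t : ℝ) : IsOpen (K.nbo e t) := by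
  rw [nbo_eq]
  exact isOpen_obox _ _

theorem nbo_subset_nb (e : K.G) (t : ℝ) : K.nbo e t ⊆ K.nb e t := by
  rw [nb_eq, nbo_eq]
  exact obox_subset _ _

theorem nb_mono (e : K.G) {t t' : ℝ} (h : t ≤ t') : K.nb e t ⊆ K.nb e t' := fun x hx k =>
  ⟨by linarith [(hx k).1], by linarith [(hx k).2]⟩

theorem ab_le (e : K.G) (k : Fin 3) : K.w (K.a e) k ≤ K.w (K.b e) k := by
  by_cases hk : k = K.dir e
  · rw [hk]
    exact (K.ab_dir e).le
  · exact (K.ab_off e k hk).le

theorem a_ne_b (e : K.G) : K.a e ≠ K.b e := fun h => by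
  have := K.ab_dir e
  rw [h] at this
  exact lt_irrefl _ this

theorem a_mem_nbo (e : K.G) {t : ℝ} (ht : 0 < t) : K.w (K.a e) ∈ K.nbo e t := fun k =>
  ⟨by linarith, by linarith [ab_le e k]⟩

theorem b_mem_nbo (e : K.G) {t : ℝ} (ht : 0 < t) : K.w (K.b e) ∈ K.nbo e t := fun k =>
  ⟨by linarith [ab_le e k], by linarith⟩

theorem closure_nbo (e : K.G) {t : ℝ} (ht : 0 < t) : closure (K.nbo e t) = K.nb e t := by
  rw [nb_eq, nbo_eq]
  apply closure_obox
  intro k
  have := ab_le e k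
  show K.w (K.a e) k - t < K.w (K.b e) k + t
  linarith

theorem mem_cball {x y : V} {R : ℝ} (hR : 0 ≤ R) : x ∈ closedBall y R ↔ ∀ k, |x k - y k| ≤ R := by
  rw [mem_closedBall, dist_pi_le_iff hR]
  rfl

theorem mem_oball {x y : V} {R : ℝ} (hR : 0 < R) : x ∈ ball y R ↔ ∀ k, |x k - y k| < R := by
  rw [mem_ball, dist_pi_lt_iff hR]
  rfl

theorem cball_eq {y : V} {R : ℝ} (hR : 0 ≤ R) :
    closedBall y R = Icc (fun k => y k - R) (fun k => y k + R) := by
  ext x
  rw [mem_cball hR, mem_Icc_iff]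
  refine forall_congr' fun k => ?_
  rw [abs_le]
  constructor
  · rintro ⟨h1, h2⟩
    exact ⟨by linarith, by linarith⟩
  · rintro ⟨h1, h2⟩
    exact ⟨by linarith, by linarith⟩

theorem oball_eq {y : V} {R : ℝ} (hR : 0 < R) :
    ball y R = obox (fun k => y k - R) (fun k => y k + R) := by
  ext x
  rw [mem_oball hR]
  refine forall_congr' fun k => ?_
  rw [abs_lt]
  constructor
  · rintro ⟨h1, h2⟩
    exact ⟨by linarith, by linarith⟩
  · rintro ⟨h1, h2⟩
    exact ⟨by linarith, by linarith⟩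

namespace Sizes

variable (s : K.Sizes)

theorem r_pos (i : K.W) : 0 < s.r i := by
  obtain ⟨n, hn⟩ := s.r_dy i
  rw [hn]
  positivity

theorem q_pos (e : K.G) : 0 < s.q e := by
  obtain ⟨n, hn⟩ := s.q_dy e
  rw [hn]
  positivity

variable {c : ℝ}

theorem mem_F {x : V} : x ∈ s.F c ↔ x ∈ s.H c ∧ x ∉ s.Hin c := Iff.rfl

theorem mem_H {x : V} : x ∈ s.H c ↔ (∃ i, x ∈ s.box c i) ∨ ∃ e, x ∈ s.beam c e := by
  rw [H, mem_union, mem_iUnion, mem_iUnion]

theorem mem_Hin {x : V} :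
    x ∈ s.Hin c ↔ (∃ i, x ∈ ball (K.w i) (c * s.r i)) ∨ ∃ e, x ∈ K.nbo e (c * s.q e) := by
  rw [Hin, mem_union, mem_iUnion, mem_iUnion]

theorem isClosed_box (i : K.W) : IsClosed (s.box c i) := isClosed_closedBall

theorem isClosed_beam (e : K.G) : IsClosed (s.beam c e) := isClosed_nb e _

theorem isOpen_Hin : IsOpen (s.Hin c) :=
  (isOpen_iUnion fun _ => isOpen_ball).union (isOpen_iUnion fun e => isOpen_nbo e _)

theorem Hin_subset : s.Hin c ⊆ s.H c :=
  union_subset_union (iUnion_mono fun _ => ball_subset_closedBall)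
    (iUnion_mono fun e => nbo_subset_nb e _)

section

variable (hc : c ∈ Ioo (1/2:ℝ) 1)
include hc

theorem cr_pos (i : K.W) : 0 < c * s.r i := mul_pos (by linarith [hc.1]) (s.r_pos i)

theorem cq_pos (e : K.G) : 0 < c * s.q e := mul_pos (by linarith [hc.1]) (s.q_pos e)

theorem cr_lt (i : K.W) : c * s.r i < s.r i := by
  have := s.r_pos i
  have := hc.2
  nlinarith

theorem cr_le2 (i : K.W) : c * s.r i ≤ 2 * s.r i := by
  have := s.r_pos i
  have := hc.2
  nlinarith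

theorem half_lt_cr (i : K.W) : s.r i / 2 < c * s.r i := by
  have := s.r_pos i
  have := hc.1
  nlinarith

theorem cq_lt (e : K.G) : c * s.q e < s.q e := by
  have := s.q_pos e
  have := hc.2
  nlinarith

theorem cq_le2 (e : K.G) : c * s.q e ≤ 2 * s.q e := by
  have := s.q_pos e
  have := hc.2
  nlinarith

/-- `8 c q ≤ c r` -/
theorem cq_le_cr (e : K.G) :
    8 * (c * s.q e) ≤ c * s.r (K.a e) ∧ 8 * (c * s.q e) ≤ c * s.r (K.b e) := by
  have h := s.q_le e
  have := hc.1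
  constructor <;> nlinarith [h.1, h.2]

theorem mem_box {x : V} {i : K.W} : x ∈ s.box c i ↔ ∀ k, |x k - K.w i k| ≤ c * s.r i :=
  mem_cball (s.cr_pos hc i).le

theorem mem_boxo {x : V} {i : K.W} :
    x ∈ ball (K.w i) (c * s.r i) ↔ ∀ k, |x k - K.w i k| < c * s.r i :=
  mem_oball (s.cr_pos hc i)

theorem box_sub (i : K.W) : s.box c i ⊆ closedBall (K.w i) (2 * s.r i) :=
  closedBall_subset_closedBall (s.cr_le2 hc i)

theorem beam_sub (e : K.G) : s.beam c e ⊆ K.nb e (2 * s.q e) := nb_mono e (s.cq_le2 hc e)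

theorem half_sub (i : K.W) : ball (K.w i) (s.r i / 2) ⊆ ball (K.w i) (c * s.r i) :=
  ball_subset_ball (s.half_lt_cr hc i).le

theorem box_unique {x : V} {i i' : K.W} (h : x ∈ s.box c i) (h' : x ∈ s.box c i') : i = i' := by
  by_contra hne
  exact Set.disjoint_left.1 (s.U_disj i i' hne) (s.box_sub hc i h) (s.box_sub hc i' h')

/-- a cube meets only the beams of its edges -/
theorem box_beam {x : V} {i : K.W} {e : K.G} (h : x ∈ s.box c i) (h' : x ∈ s.beam c e) :
    i = K.a e ∨ i = K.b e :=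
  s.U_edge i e x (s.box_sub hc i h) (s.beam_sub hc e h')

/-- two beams meet only near a common end -/
theorem beam_beam {x : V} {e e' : K.G} (hne : e ≠ e') (h : x ∈ s.beam c e)
    (h' : x ∈ s.beam c e') : ∃ i, (i = K.a e ∨ i = K.b e) ∧ (i = K.a e' ∨ i = K.b e') ∧
      x ∈ ball (K.w i) (s.r i / 2) :=
  s.tube_disj e e' hne x (s.beam_sub hc e h) (s.beam_sub hc e' h')

theorem Hin_of_half {x : V} {i : K.W} (h : x ∈ ball (K.w i) (s.r i / 2)) : x ∈ s.Hin c :=
  s.mem_Hin.2 (Or.inl ⟨i, s.half_sub hc i h⟩)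

/-- outside the open neighbourhood a point is in at most one beam -/
theorem beam_unique {x : V} {e e' : K.G} (h : x ∈ s.beam c e) (h' : x ∈ s.beam c e')
    (hx : x ∉ s.Hin c) : e = e' := by
  by_contra hne
  obtain ⟨i, -, -, hi⟩ := s.beam_beam hc hne h h'
  exact hx (s.Hin_of_half hc hi)

theorem closure_ball_w (i : K.W) : closure (ball (K.w i) (c * s.r i)) = s.box c i :=
  closure_ball _ (s.cr_pos hc i).ne'

theorem closure_nbo_q (e : K.G) : closure (K.nbo e (c * s.q e)) = s.beam c e :=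
  closure_nbo e (s.cq_pos hc e)

/-- `H` is in the closure of `Hin` -/
theorem H_subset_closure : s.H c ⊆ closure (s.Hin c) := by
  intro x hx
  rcases s.mem_H.1 hx with ⟨i, hi⟩ | ⟨e, he⟩
  · rw [← s.closure_ball_w hc i] at hi
    exact closure_mono (fun y hy => s.mem_Hin.2 (Or.inl ⟨i, hy⟩)) hi
  · rw [← s.closure_nbo_q hc e] at he
    exact closure_mono (fun y hy => s.mem_Hin.2 (Or.inr ⟨e, hy⟩)) he

theorem H_sub : s.H c ⊆ Λ := by
  intro x hx
  rcases s.mem_H.1 hx with ⟨i, hi⟩ | ⟨e, he⟩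
  · exact s.U_sub i (s.box_sub hc i hi)
  · exact s.tube_sub e (s.beam_sub hc e he)

theorem lf_box : LF (s.box c) Λ := s.lfU.subset fun i => s.box_sub hc i

theorem lf_beam : LF (s.beam c) Λ := s.lfTube.subset fun e => s.beam_sub hc e

theorem ev_box {z : V} (hz : z ∈ Λ) : ∀ᶠ y in 𝓝 z, ∀ i, y ∈ s.box c i → z ∈ s.box c i :=
  LF_eventually (s.lf_box hc) s.isClosed_box hz

theorem ev_beam {z : V} (hz : z ∈ Λ) : ∀ᶠ y in 𝓝 z, ∀ e, y ∈ s.beam c e → z ∈ s.beam c e :=
  LF_eventually (s.lf_beam hc) s.isClosed_beam hz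

/-- a point of `Λ` outside `H` has a neighbourhood outside `H` -/
theorem ev_notMem_H {z : V} (hz : z ∈ Λ) (hzH : z ∉ s.H c) : ∀ᶠ y in 𝓝 z, y ∉ s.H c := by
  filter_upwards [s.ev_box hc hz, s.ev_beam hc hz] with y h1 h2 hy
  apply hzH
  rcases s.mem_H.1 hy with ⟨i, hi⟩ | ⟨e, he⟩
  · exact s.mem_H.2 (Or.inl ⟨i, h1 i hi⟩)
  · exact s.mem_H.2 (Or.inr ⟨e, h2 e he⟩)

theorem H_closed : closure (s.H c) ∩ Λ ⊆ s.H c := by
  rintro x ⟨hx, hxΛ⟩
  by_contra hH
  obtain ⟨y, hy, hy'⟩ := ((mem_closure_iff_frequently.1 hx).and_eventually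
    (s.ev_notMem_H hc hxΛ hH)).exists
  exact hy' hy

/-- the special vertex at a point of `F`: all cubes and beams at the point belong to it -/
theorem exists_vertex {x : V} (hx : x ∈ s.F c) : ∃ i, (∀ i', x ∈ s.box c i' → i' = i) ∧
    ∀ e, x ∈ s.beam c e → i = K.a e ∨ i = K.b e := by
  by_cases h : ∃ i, x ∈ s.box c i
  · obtain ⟨i, hi⟩ := h
    exact ⟨i, fun i' hi' => s.box_unique hc hi' hi, fun e he => s.box_beam hc hi he⟩
  · push Not at h
    rcases s.mem_H.1 hx.1 with ⟨i, hi⟩ | ⟨e, he⟩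
    · exact absurd hi (h i)
    · refine ⟨K.a e, fun i' hi' => absurd hi' (h i'), fun e' he' => ?_⟩
      rw [s.beam_unique hc he he' hx.2]
      exact Or.inl rfl

/-- the points of `F` are not interior points of `H` -/
theorem F_notMem_interior {x : V} (hx : x ∈ s.F c) : x ∉ interior (s.H c) := by
  intro hint
  obtain ⟨i, hi1, hi2⟩ := s.exists_vertex hc hx
  have hxΛ := s.H_sub hc hx.1
  have hlim : Tendsto (fun t : ℝ => x + t • (x - K.w i)) (𝓝[>] 0) (𝓝 x) := by
    have h1 : Tendsto (fun t : ℝ => x + t • (x - K.w i)) (𝓝 0) (𝓝 (x + (0:ℝ) • (x - K.w i))) :=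
      (continuous_const.add (continuous_id.smul continuous_const)).tendsto _
    rw [zero_smul, add_zero] at h1
    exact h1.mono_left nhdsWithin_le_nhds
  have hev := hlim.eventually ((s.ev_box hc hxΛ).and ((s.ev_beam hc hxΛ).and
    (mem_interior_iff_mem_nhds.1 hint)))
  obtain ⟨t, ⟨h1, h2, h3⟩, ht⟩ := (hev.and self_mem_nhdsWithin).exists
  have ht0 : 0 < t := ht
  rcases s.mem_H.1 h3 with ⟨i', hi'⟩ | ⟨e, he⟩
  · obtain rfl := hi1 i' (h1 i' hi')
    have hnot : x ∉ ball (K.w i') (c * s.r i') := fun h => hx.2 (s.mem_Hin.2 (Or.inl ⟨i', h⟩))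
    rw [oball_eq (s.cr_pos hc i')] at hnot
    refine expand_notMem ?_ hnot ht0 (by rw [← cball_eq (s.cr_pos hc i').le]; exact hi')
    intro k
    have := s.cr_pos hc i'
    constructor
    · show K.w i' k - c * s.r i' < K.w i' k
      linarith
    · show K.w i' k < K.w i' k + c * s.r i'
      linarith
  · have hxe := h2 e he
    have hnot : x ∉ K.nbo e (c * s.q e) := fun h => hx.2 (s.mem_Hin.2 (Or.inr ⟨e, h⟩))
    have hw : K.w i ∈ K.nbo e (c * s.q e) := by
      rcases hi2 e hxe with rfl | rfl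
      · exact a_mem_nbo e (s.cq_pos hc e)
      · exact b_mem_nbo e (s.cq_pos hc e)
    rw [beam, nb_eq] at he
    exact expand_notMem hw hnot ht0 he

theorem H_interior : interior (s.H c) = s.Hin c := by
  apply Subset.antisymm
  · intro x hx
    by_contra hxi
    exact s.F_notMem_interior hc ⟨interior_subset hx, hxi⟩ hx
  · exact interior_maximal s.Hin_subset s.isOpen_Hin

theorem H_frontier : frontier (s.H c) ∩ Λ = s.F c := by
  ext x
  constructor
  · rintro ⟨hx, hxΛ⟩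
    refine ⟨s.H_closed hc ⟨hx.1, hxΛ⟩, ?_⟩
    rw [← s.H_interior hc]
    exact hx.2
  · intro hx
    exact ⟨⟨subset_closure hx.1, s.F_notMem_interior hc hx⟩, s.H_sub hc hx.1⟩

end

end Sizes

end BoxCx

end P073.PA691
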