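import Vale.Agent.P073.TM489.B1

/-!
# P073, block TM-S (helper489), part 2: lengths, cover, local finiteness, the cells of the tiles
-/

open Set Metric Topology Filter

namespace P073.PA691

open P073 PR720
open Vale.Agent.P073.St (V IsInv)

namespace BoxCx

variable {Λ : Set V} {v : V} {K : BoxCx Λ v}

namespace Sizes

variable (s : K.Sizes) {c : ℝ}

/-- the edge is longer than the sum of the diameters of the cubes at its ends -/
theorem len (e : K.G) :
    2 * s.r (K.a e) + 2 * s.r (K.b e) < K.w (K.b e) (K.dir e) - K.w (K.a e) (K.dir e) := by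
  by_contra hlt
  push Not at hlt
  have hra := s.r_pos (K.a e)
  have hrb := s.r_pos (K.b e)
  have hab := K.ab_dir e
  set L := K.w (K.b e) (K.dir e) - K.w (K.a e) (K.dir e) with hL
  set t := min (2 * s.r (K.a e)) L with ht
  have ht1 : t ≤ 2 * s.r (K.a e) := min_le_left _ _
  have ht2 : t ≤ L := min_le_right _ _
  have ht0 : 0 ≤ t := le_min (by linarith) (by linarith)
  have ht3 : L - t ≤ 2 * s.r (K.b e) := by
    rcases min_choice (2 * s.r (K.a e)) L with h | h
    · rw [ht, h]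
      linarith
    · rw [ht, h]
      linarith
  have hd := Set.disjoint_left.1 (s.U_disj _ _ (a_ne_b e))
  refine @hd (Function.update (K.w (K.a e)) (K.dir e) (K.w (K.a e) (K.dir e) + t)) ?_ ?_
  · rw [mem_cball (by linarith)]
    intro k
    by_cases hk : k = K.dir e
    · subst hk
      rw [Function.update_self, add_sub_cancel_left, abs_of_nonneg ht0]
      exact ht1
    · rw [Function.update_of_ne hk, sub_self, abs_zero]
      linarith
  · rw [mem_cball (by linarith)]
    intro k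
    by_cases hk : k = K.dir e
    · subst hk
      rw [Function.update_self, abs_le]
      constructor
      · linarith
      · linarith
    · rw [Function.update_of_ne hk, K.ab_off e k hk, sub_self, abs_zero]
      linarith

theorem ca_lt_cb (e : K.G) : s.ca e < s.cb e := by
  have := s.len e
  have := s.r_pos (K.a e)
  have := s.r_pos (K.b e)
  unfold ca cb
  linarith

theorem a_lt_ca (e : K.G) : K.w (K.a e) (K.dir e) + s.r (K.a e) < s.ca e := by
  have := s.r_pos (K.a e)
  unfold ca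
  linarith

theorem cb_lt_b (e : K.G) : s.cb e < K.w (K.b e) (K.dir e) - s.r (K.b e) := by
  have := s.r_pos (K.b e)
  unfold cb
  linarith

section

variable (hc : c ∈ Ioo (1/2:ℝ) 1)
include hc

/-- a point of the beam in the cube of its first end is before `ca` -/
theorem lt_ca_of_box {x : V} {e : K.G} (h : x ∈ s.box c (K.a e)) : x (K.dir e) < s.ca e := by
  have h1 := (abs_le.1 ((s.mem_box hc).1 h (K.dir e))).2
  have := s.a_lt_ca e
  have := s.cr_lt hc (K.a e)
  linarith

/-- a point of the beam in the cube of its second end is after `cb` -/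
theorem cb_lt_of_box {x : V} {e : K.G} (h : x ∈ s.box c (K.b e)) : s.cb e < x (K.dir e) := by
  have h1 := (abs_le.1 ((s.mem_box hc).1 h (K.dir e))).1
  have := s.cb_lt_b e
  have := s.cr_lt hc (K.b e)
  linarith

omit hc in
theorem box_subset_RV (i : K.W) : s.box c i ⊆ s.RV c i := fun _ hx => Or.inl (Or.inl hx)

omit hc in
theorem stubA_subset_RV {x : V} {e : K.G} (h : x ∈ s.beam c e) (h' : x (K.dir e) ≤ s.ca e) :
    x ∈ s.RV c (K.a e) := by
  refine Or.inl (Or.inr ?_)
  rw [mem_iUnion₂]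
  exact ⟨e, rfl, h, h'⟩

omit hc in
theorem stubB_subset_RV {x : V} {e : K.G} (h : x ∈ s.beam c e) (h' : s.cb e ≤ x (K.dir e)) :
    x ∈ s.RV c (K.b e) := by
  refine Or.inr ?_
  rw [mem_iUnion₂]
  exact ⟨e, rfl, h, h'⟩

omit hc in
theorem mem_RV {x : V} {i : K.W} : x ∈ s.RV c i ↔ x ∈ s.box c i ∨
    (∃ e, K.a e = i ∧ x ∈ s.beam c e ∧ x (K.dir e) ≤ s.ca e) ∨
    ∃ e, K.b e = i ∧ x ∈ s.beam c e ∧ s.cb e ≤ x (K.dir e) := by
  unfold RV
  rw [mem_union, mem_union, mem_iUnion₂, mem_iUnion₂, or_assoc]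
  simp only [exists_prop, mem_ofPred_eq]

omit hc in
theorem RV_subset_H (i : K.W) : s.RV c i ⊆ s.H c := by
  intro x hx
  rcases s.mem_RV.1 hx with h | ⟨e, -, h, -⟩ | ⟨e, -, h, -⟩
  · exact s.mem_H.2 (Or.inl ⟨i, h⟩)
  · exact s.mem_H.2 (Or.inr ⟨e, h⟩)
  · exact s.mem_H.2 (Or.inr ⟨e, h⟩)

omit hc in
theorem RG_subset_H (e : K.G) : s.RG c e ⊆ s.H c := fun _ hx => s.mem_H.2 (Or.inr ⟨e, hx.1⟩)

omit hc in
theorem RT_subset (p : K.T) : s.RT c p ⊆ Λ := fun _ hx => K.sub p hx.1

omit hc in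
/-- `H` is covered by the cells of the vertices and of the edges -/
theorem H_cover {x : V} (hx : x ∈ s.H c) : (∃ i, x ∈ s.RV c i) ∨ ∃ e, x ∈ s.RG c e := by
  rcases s.mem_H.1 hx with ⟨i, hi⟩ | ⟨e, he⟩
  · exact Or.inl ⟨i, s.box_subset_RV i hi⟩
  · by_cases h1 : x (K.dir e) ≤ s.ca e
    · exact Or.inl ⟨_, s.stubA_subset_RV he h1⟩
    · by_cases h2 : s.cb e ≤ x (K.dir e)
      · exact Or.inl ⟨_, s.stubB_subset_RV he h2⟩
      · exact Or.inr ⟨e, he, (not_le.1 h1).le, (not_le.1 h2).le⟩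

theorem cover : ⋃ j, s.R c j = Λ := by
  apply Subset.antisymm
  · apply iUnion_subset
    rintro (p | i | e)
    · exact s.RT_subset p
    · exact (s.RV_subset_H i).trans (s.H_sub hc)
    · exact (s.RG_subset_H e).trans (s.H_sub hc)
  · intro x hx
    rw [mem_iUnion]
    by_cases hH : x ∈ s.H c
    · rcases s.H_cover hH with ⟨i, hi⟩ | ⟨e, he⟩
      · exact ⟨.inr (.inl i), hi⟩
      · exact ⟨.inr (.inr e), he⟩
    · obtain ⟨p, hp⟩ := K.cover x hx
      exact ⟨.inl p, hp, fun h => hH (s.Hin_subset h)⟩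

theorem lf_RV : LF (s.RV c) Λ := by
  intro z hz
  obtain ⟨U, hU, hfin⟩ := s.lf_box hc z hz
  obtain ⟨U', hU', hfin'⟩ := s.lf_beam hc z hz
  refine ⟨U ∩ U', inter_mem hU hU', ((hfin.union (hfin'.image K.a)).union
    (hfin'.image K.b)).subset ?_⟩
  rintro i ⟨x, hx, hxU, hxU'⟩
  rcases s.mem_RV.1 hx with h | ⟨e, he, h, -⟩ | ⟨e, he, h, -⟩
  · exact Or.inl (Or.inl ⟨x, h, hxU⟩)
  · exact Or.inl (Or.inr ⟨e, ⟨x, h, hxU'⟩, he⟩)
  · exact Or.inr ⟨e, ⟨x, h, hxU'⟩, he⟩

theorem lf : LF (s.R c) Λ := by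
  intro z hz
  obtain ⟨U, hU, hfin⟩ := K.lfT z hz
  obtain ⟨U1, hU1, hfin1⟩ := s.lf_RV hc z hz
  obtain ⟨U2, hU2, hfin2⟩ := s.lf_beam hc z hz
  refine ⟨U ∩ (U1 ∩ U2), inter_mem hU (inter_mem hU1 hU2),
    (((hfin.image Sum.inl).union (hfin1.image (Sum.inr ∘ Sum.inl))).union
      (hfin2.image (Sum.inr ∘ Sum.inr))).subset ?_⟩
  rintro (p | i | e) ⟨x, hx, hxU, hxU1, hxU2⟩
  · exact Or.inl (Or.inl ⟨p, ⟨x, hx.1, hxU⟩, rfl⟩)
  · exact Or.inl (Or.inr ⟨i, ⟨x, hx, hxU1⟩, rfl⟩)
  · exact Or.inr ⟨e, ⟨x, hx.1, hxU2⟩, rfl⟩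

omit hc in
theorem isClosed_RT (p : K.T) : IsClosed (s.RT c p) :=
  isClosed_Icc.inter s.isOpen_Hin.isClosed_compl

/-- the frontier of the cell of a tile -/
theorem frT (p : K.T) : frontier (s.RT c p) =
    {x ∈ s.RT c p | x ∈ s.F c ∨ ∃ k, x k = K.lo p k ∨ x k = K.hi p k} := by
  rw [(s.isClosed_RT p).frontier_eq]
  ext x
  constructor
  · rintro ⟨hx, hxi⟩
    refine ⟨hx, ?_⟩
    by_contra hcon
    push Not at hcon
    obtain ⟨hF, hk⟩ := hcon
    have hH : x ∉ s.H c := fun h => hF ⟨h, hx.2⟩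
    apply hxi
    rw [mem_interior_iff_mem_nhds]
    have hxo : x ∈ obox (K.lo p) (K.hi p) := by
      intro k
      obtain ⟨h1, h2⟩ := mem_Icc_iff.1 hx.1 k
      exact ⟨lt_of_le_of_ne h1 (Ne.symm (hk k).1), lt_of_le_of_ne h2 (hk k).2⟩
    filter_upwards [(isOpen_obox _ _).mem_nhds hxo, s.ev_notMem_H hc (K.sub p hx.1) hH] with y hy hyH
    exact ⟨obox_subset _ _ hy, fun h => hyH (s.Hin_subset h)⟩
  · rintro ⟨hx, hF | ⟨k, hk⟩⟩
    · refine ⟨hx, fun hxi => ?_⟩
      have h1 := s.H_subset_closure hc hF.1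
      rw [mem_closure_iff_nhds] at h1
      obtain ⟨y, hy, hyH⟩ := h1 _ (mem_interior_iff_mem_nhds.1 hxi)
      exact hy.2 hyH
    · refine ⟨hx, fun hxi => ?_⟩
      have h1 : x ∈ interior (Icc (K.lo p) (K.hi p)) := interior_mono (fun y hy => hy.1) hxi
      rw [interior_Icc_V] at h1
      rcases hk with hk | hk
      · exact (h1 k).1.ne' hk
      · exact (h1 k).2.ne hk

omit hc in
/-- the centre of a tile is outside `H` -/
theorem center_notMem (hc' : c < 1) (p : K.T) :
    (fun k => (K.lo p k + K.hi p k) / 2) ∉ s.H c := by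
  set x : V := fun k => (K.lo p k + K.hi p k) / 2 with hx
  have hxp : x ∈ K.cube p := by
    refine mem_Icc_iff.2 fun k => ?_
    have := K.lt p k
    simp only [hx]
    constructor <;> linarith
  -- the closed cubes of radius `r`
  have hbox : ∀ i, x ∉ closedBall (K.w i) (s.r i) := by
    intro i hi
    have hr := s.r_pos i
    obtain ⟨hw, hk⟩ := s.U_tile i p x (closedBall_subset_closedBall (by linarith) hi) hxp
    obtain ⟨k, hk'⟩ := K.w_tile i p hw
    have h1 := abs_le.1 ((mem_cball hr.le).1 hi k)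
    have hlt := K.lt p k
    simp only [hx] at h1
    rcases hk' with h | h
    · have h2 := (hk k).2 (by rw [h]; exact hlt.ne)
      rw [h] at h1 h2
      linarith [h1.2]
    · have h2 := (hk k).1 (by rw [h]; exact hlt.ne')
      rw [h] at h1 h2
      linarith [h1.1]
  rw [s.mem_H]
  rintro (⟨i, hi⟩ | ⟨e, he⟩)
  · refine hbox i (closedBall_subset_closedBall ?_ hi)
    have := s.r_pos i
    nlinarith
  · have hq := s.q_pos e
    have hcq : c * s.q e ≤ 2 * s.q e := by nlinarith
    obtain ⟨hsub, hk⟩ := s.tube_tile e p x (nb_mono e hcq he) hxp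
      (fun h => hbox _ ((ball_subset_closedBall.trans (closedBall_subset_closedBall
        (by have := s.r_pos (K.a e); linarith))) h))
      (fun h => hbox _ ((ball_subset_closedBall.trans (closedBall_subset_closedBall
        (by have := s.r_pos (K.b e); linarith))) h))
    -- the midpoint of the edge
    have hab := K.ab_dir e
    set y : V := fun k => (K.w (K.a e) k + K.w (K.b e) k) / 2 with hy
    have hye : y ∈ Icc (K.w (K.a e)) (K.w (K.b e)) := by
      refine mem_Icc_iff.2 fun k => ?_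
      have := ab_le e k
      simp only [hy]
      constructor <;> linarith
    obtain ⟨-, k, hkd, hkk⟩ := K.edge_tile e p y hye
      (fun h => by
        have := congrFun h (K.dir e)
        simp only [hy] at this
        linarith)
      (fun h => by
        have := congrFun h (K.dir e)
        simp only [hy] at this
        linarith) (hsub hye)
    have hlt := K.lt p k
    have h1 := he k
    have heq := K.ab_off e k hkd
    have hcq' : c * s.q e < s.q e := by nlinarith
    simp only [hx] at h1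
    rcases hkk with h | h
    · have h2 := (hk k hkd).2 (by rw [h]; exact hlt.ne)
      rw [← heq, h] at h1
      rw [h] at h2
      linarith [h1.2]
    · have h2 := (hk k hkd).1 (by rw [h]; exact hlt.ne')
      rw [h] at h1 h2
      linarith [h1.1]

theorem H_ne (hne : Λ.Nonempty) : (Λ \ s.H c).Nonempty := by
  obtain ⟨x, hx⟩ := hne
  obtain ⟨p, -⟩ := K.cover x hx
  refine ⟨_, K.sub p ?_, s.center_notMem hc.2 p⟩
  refine mem_Icc_iff.2 fun k => ?_
  have := K.lt p k
  constructor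
  · show K.lo p k ≤ (K.lo p k + K.hi p k) / 2
    linarith
  · show (K.lo p k + K.hi p k) / 2 ≤ K.hi p k
    linarith

theorem H_int (hne : Λ.Nonempty) : (interior (s.H c)).Nonempty := by
  obtain ⟨x, hx⟩ := hne
  obtain ⟨p, -⟩ := K.cover x hx
  obtain ⟨e, -⟩ := K.skel_tile p (K.lo p) (mem_Icc_iff.2 fun k => ⟨le_refl _, (K.lt p k).le⟩) 0 1
    (by decide) (Or.inl rfl) (Or.inl rfl)
  rw [s.H_interior hc]
  exact ⟨K.w (K.a e), s.mem_Hin.2 (Or.inr ⟨e, a_mem_nbo e (s.cq_pos hc e)⟩)⟩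

end

end Sizes

end BoxCx

end P073.PA691
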